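import Vale.Agent.P361.LRO.ON.Garding

/-!
Theorem 1 (one node / star-mesh inequality) of P361 LRO, step (2).
-/

set_option autoImplicit false

namespace Vale.Agent.P361.LRO.ON

open Finset Complex

/-- second order expansion `1 + s A + s² (A² - B)/2 + s³ R(s)` with `R` continuous -/
def Ex2 (g : ℂ → ℂ) (A B : ℂ) : Prop :=
  ∃ R : ℂ → ℂ, Continuous R ∧ ∀ s, g s = 1 + s * A + s ^ 2 * ((A ^ 2 - B) / 2) + s ^ 3 * R s

theorem Ex2.one : Ex2 (fun _ => 1) 0 0 := ⟨fun _ => 0, continuous_const, fun s => by ring⟩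

theorem Ex2.lin (φ : ℂ) : Ex2 (fun s => 1 + s * φ) φ (φ ^ 2) :=
  ⟨fun _ => 0, continuous_const, fun s => by ring⟩

theorem Ex2.mul {g h : ℂ → ℂ} {A B A' B' : ℂ} (hg : Ex2 g A B) (hh : Ex2 h A' B') :
    Ex2 (fun s => g s * h s) (A + A') (B + B') := by
  obtain ⟨R, hR, hg⟩ := hg
  obtain ⟨R', hR', hh⟩ := hh
  refine ⟨fun s => A * ((A' ^ 2 - B') / 2) + A' * ((A ^ 2 - B) / 2)
    + s * (((A ^ 2 - B) / 2) * ((A' ^ 2 - B') / 2))
    + R s * (1 + s * A' + s ^ 2 * ((A' ^ 2 - B') / 2) + s ^ 3 * R' s)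
    + (1 + s * A + s ^ 2 * ((A ^ 2 - B) / 2)) * R' s, by fun_prop, fun s => ?_⟩
  simp only [hg s, hh s]
  ring

theorem Ex2.pow {g : ℂ → ℂ} {A B : ℂ} (hg : Ex2 g A B) (k : ℕ) :
    Ex2 (fun s => g s ^ k) (k * A) (k * B) := by
  induction k with
  | zero => simpa using Ex2.one
  | succ k ih =>
    have h1 := ih.mul hg
    have e1 : ((k + 1 : ℕ) : ℂ) * A = k * A + A := by push_cast; ring
    have e2 : ((k + 1 : ℕ) : ℂ) * B = k * B + B := by push_cast; ring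
    rw [e1, e2]
    simpa only [pow_succ] using h1

theorem Ex2.prod {X : Type*} [DecidableEq X] (s : Finset X) (g : X → ℂ → ℂ) (A B : X → ℂ)
    (h : ∀ x ∈ s, Ex2 (g x) (A x) (B x)) :
    Ex2 (fun t => ∏ x ∈ s, g x t) (∑ x ∈ s, A x) (∑ x ∈ s, B x) := by
  induction s using Finset.induction_on with
  | empty => simpa using Ex2.one
  | insert a s ha ih =>
    have h1 := (h a (Finset.mem_insert_self a s)).mul
      (ih fun x hx => h x (Finset.mem_insert_of_mem hx))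
    simpa only [Finset.prod_insert ha, Finset.sum_insert ha] using h1

/-- a quadratic without zeros in the open right half plane -/
theorem quad_halfplane (a b c : ℂ) (h : ∀ μ : ℂ, 0 < μ.re → a * μ ^ 2 + b * μ + c ≠ 0) :
    0 ≤ (b * (starRingEnd ℂ) c).re := by
  by_cases hc : c = 0
  · simp [hc]
  by_cases ha : a = 0
  · by_contra hlt
    push_neg at hlt
    have hb : b ≠ 0 := by
      rintro rfl
      simp at hlt
    have hbn : 0 < normSq b := normSq_pos.2 hb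
    have hre : 0 < (-c / b).re := by
      have : (-c / b).re = -((b * (starRingEnd ℂ) c).re) / normSq b := by
        rw [div_eq_mul_inv, Complex.inv_def]
        simp only [mul_re, mul_im, neg_re, neg_im, conj_re, conj_im, ofReal_re, ofReal_im,
          ]
        field_simp
        ring
      rw [this]
      exact div_pos (by linarith) hbn
    apply h _ hre
    rw [ha]
    field_simp
    ring
  · -- two roots
    obtain ⟨δ, hδ⟩ := IsAlgClosed.exists_pow_nat_eq (b ^ 2 - 4 * a * c) (n := 2) (by norm_num)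
    set μ₁ : ℂ := (-b + δ) / (2 * a) with hμ₁
    set μ₂ : ℂ := (-b - δ) / (2 * a) with hμ₂
    have h2a : (2 * a) ≠ 0 := mul_ne_zero two_ne_zero ha
    have e1 : a * μ₁ ^ 2 + b * μ₁ + c = 0 := by
      rw [hμ₁]; field_simp
      linear_combination (1 : ℂ) * hδ
    have e2 : a * μ₂ ^ 2 + b * μ₂ + c = 0 := by
      rw [hμ₂]; field_simp
      linear_combination (1 : ℂ) * hδ
    have r1 : μ₁.re ≤ 0 := by
      by_contra hlt; push_neg at hlt; exact h _ hlt e1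
    have r2 : μ₂.re ≤ 0 := by
      by_contra hlt; push_neg at hlt; exact h _ hlt e2
    have hprod : a * (μ₁ * μ₂) = c := by
      rw [hμ₁, hμ₂]; field_simp
      linear_combination (-1 : ℂ) * hδ
    have hsum : a * (μ₁ + μ₂) = -b := by
      rw [hμ₁, hμ₂]; field_simp
      ring
    -- b conj c = -a (μ₁+μ₂) conj(a μ₁ μ₂) = -|a|² (μ₁+μ₂) conj(μ₁) conj(μ₂)
    have hb : b = -(a * (μ₁ + μ₂)) := by rw [hsum]; ring
    rw [← hprod, hb]
    have : (-(a * (μ₁ + μ₂)) * (starRingEnd ℂ) (a * (μ₁ * μ₂))).re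
        = normSq a * (normSq μ₁ * (-μ₂.re) + normSq μ₂ * (-μ₁.re)) := by
      simp only [map_mul, mul_re, mul_im, neg_re, neg_im, conj_re, conj_im, add_re, add_im,
        normSq_apply]
      ring
    rw [this]
    have := normSq_nonneg a
    have := normSq_nonneg μ₁
    have := normSq_nonneg μ₂
    have h1 : 0 ≤ normSq μ₁ * (-μ₂.re) := mul_nonneg (normSq_nonneg _) (by linarith)
    have h2 : 0 ≤ normSq μ₂ * (-μ₁.re) := mul_nonneg (normSq_nonneg _) (by linarith)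
    exact mul_nonneg (normSq_nonneg _) (by linarith)

theorem quad_lower (a b c : ℂ) (h : ∀ μ : ℂ, 0 < μ.re → a * μ ^ 2 + b * μ + c ≠ 0)
    (ν : ℂ) (hν : 0 < ν.re) : ‖a‖ * ν.re ^ 2 ≤ ‖a * ν ^ 2 + b * ν + c‖ := by
  by_cases ha : a = 0
  · rw [ha]; simp
  · obtain ⟨δ, hδ⟩ := IsAlgClosed.exists_pow_nat_eq (b ^ 2 - 4 * a * c) (n := 2) (by norm_num)
    set μ₁ : ℂ := (-b + δ) / (2 * a) with hμ₁
    set μ₂ : ℂ := (-b - δ) / (2 * a) with hμ₂
    have e1 : a * μ₁ ^ 2 + b * μ₁ + c = 0 := by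
      rw [hμ₁]; field_simp
      linear_combination (1 : ℂ) * hδ
    have e2 : a * μ₂ ^ 2 + b * μ₂ + c = 0 := by
      rw [hμ₂]; field_simp
      linear_combination (1 : ℂ) * hδ
    have r1 : μ₁.re ≤ 0 := by
      by_contra hlt; push_neg at hlt; exact h _ hlt e1
    have r2 : μ₂.re ≤ 0 := by
      by_contra hlt; push_neg at hlt; exact h _ hlt e2
    have hprod : a * (μ₁ * μ₂) = c := by
      rw [hμ₁, hμ₂]; field_simp
      linear_combination (-1 : ℂ) * hδ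
    have hsum : a * (μ₁ + μ₂) = -b := by
      rw [hμ₁, hμ₂]; field_simp
      ring
    have hfac : a * ν ^ 2 + b * ν + c = a * ((ν - μ₁) * (ν - μ₂)) := by
      have : a * ((ν - μ₁) * (ν - μ₂)) = a * ν ^ 2 - (a * (μ₁ + μ₂)) * ν + a * (μ₁ * μ₂) := by
        ring
      rw [this, hsum, hprod]; ring
    rw [hfac, norm_mul, norm_mul]
    refine mul_le_mul_of_nonneg_left ?_ (norm_nonneg _)
    have k1 : ν.re ≤ ‖ν - μ₁‖ := by
      refine le_trans ?_ ((le_abs_self _).trans (Complex.abs_re_le_norm _))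
      rw [Complex.sub_re]; linarith
    have k2 : ν.re ≤ ‖ν - μ₂‖ := by
      refine le_trans ?_ ((le_abs_self _).trans (Complex.abs_re_le_norm _))
      rw [Complex.sub_re]; linarith
    rw [sq]
    exact mul_le_mul k1 k2 hν.le (norm_nonneg _)

/-- limit step -/
theorem limit_step {B R : ℂ → ℂ} {B0 C2 : ℝ} (hB : Continuous B) (hR : Continuous R)
    (hB0 : B 0 = B0) (hpos : 0 < B0)
    (h : ∀ ξ : ℝ, 0 ≤ (B (-(I * ξ)) * (starRingEnd ℂ)
      ((-(I * ξ)) ^ 2 * (C2 : ℂ) + (-(I * ξ)) ^ 3 * R (-(I * ξ)))).re) : C2 ≤ 0 := by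
  -- divide by ξ²
  have h1 : ∀ ξ : ℝ, ξ ≠ 0 → 0 ≤ (B (-(I * ξ)) * (starRingEnd ℂ)
      (-(C2 : ℂ) + (I * ξ) * R (-(I * ξ)))).re := by
    intro ξ hξ
    have h2 := h ξ
    have e : ((-(I * (ξ:ℂ))) ^ 2 * (C2 : ℂ) + (-(I * (ξ:ℂ))) ^ 3 * R (-(I * (ξ:ℂ))))
        = ((ξ ^ 2 : ℝ) : ℂ) * (-(C2 : ℂ) + (I * ξ) * R (-(I * ξ))) := by
      have hI3 : (I:ℂ) ^ 3 = -I := by rw [pow_succ, I_sq]; ring
      push_cast
      ring_nf
      rw [hI3, I_sq]
      ring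
    rw [e, map_mul, Complex.conj_ofReal, mul_left_comm, Complex.re_ofReal_mul] at h2
    have h3 : 0 < ξ ^ 2 := by positivity
    exact nonneg_of_mul_nonneg_right (by linarith [h2]) h3
  have hcont : Continuous (fun ξ : ℝ => (B (-(I * ξ)) * (starRingEnd ℂ)
      (-(C2 : ℂ) + (I * ξ) * R (-(I * ξ)))).re) := by
    have hc1 : Continuous (fun ξ : ℝ => (-(I * (ξ:ℂ)))) := by fun_prop
    have hc2 := hB.comp hc1
    have hc3 := hR.comp hc1
    refine Complex.continuous_re.comp (hc2.mul (Complex.continuous_conj.comp ?_))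
    exact continuous_const.add ((by fun_prop : Continuous fun ξ : ℝ => I * (ξ:ℂ)).mul hc3)
  have hten := (hcont.tendsto 0).mono_left (nhdsWithin_le_nhds (s := {0}ᶜ))
  have hge : 0 ≤ (B (-(I * ((0:ℝ):ℂ))) * (starRingEnd ℂ)
      (-(C2 : ℂ) + (I * ((0:ℝ):ℂ)) * R (-(I * ((0:ℝ):ℂ))))).re := by
    refine ge_of_tendsto hten ?_
    filter_upwards [self_mem_nhdsWithin] with ξ hξ
    exact h1 ξ hξ
  simp [hB0] at hge
  nlinarith

variable {X Ω : Type*} [Fintype X] [DecidableEq X] [Fintype Ω]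

/-- `GF` at a vector of the form `λ` at `z`, `1 + s φ` elsewhere (`φ z = 0`) -/
theorem GF_update (W : Ω → ℝ) (n : Ω → X → ℕ) (z : X) (φ : X → ℝ) (hφ : φ z = 0) (s lam : ℂ) :
    GF W n (fun x => if x = z then lam else 1 + s * (φ x : ℂ))
      = ∑ ω, (W ω : ℂ) * (lam ^ n ω z * ∏ x, (1 + s * (φ x : ℂ)) ^ n ω x) := by
  unfold GF
  refine Finset.sum_congr rfl fun ω _ => ?_
  congr 1
  rw [← Finset.mul_prod_erase univ _ (Finset.mem_univ z),
    ← Finset.mul_prod_erase univ (fun x => (1 + s * (φ x : ℂ)) ^ n ω x) (Finset.mem_univ z)]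
  simp only [if_true, hφ]
  simp only [ofReal_zero, mul_zero, add_zero, one_pow, one_mul]
  congr 1
  refine Finset.prod_congr rfl fun x hx => ?_
  rw [if_neg (Finset.ne_of_mem_erase hx)]

/-- partial sums over `{n_z = i}` -/
noncomputable def Sc (W : Ω → ℝ) (n : Ω → X → ℕ) (z : X) (i : ℕ) (f : Ω → ℝ) : ℝ :=
  ∑ ω, if n ω z = i then W ω * f ω else 0

omit [Fintype X] [DecidableEq X] in
theorem Sc_split (W : Ω → ℝ) (n : Ω → X → ℕ) (z : X) (hn : ∀ ω, n ω z ≤ 2) (f : Ω → ℝ)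
    (κ : ℕ → ℝ) :
    ∑ ω, W ω * κ (n ω z) * f ω = κ 2 * Sc W n z 2 f + κ 1 * Sc W n z 1 f + κ 0 * Sc W n z 0 f := by
  unfold Sc
  rw [Finset.mul_sum, Finset.mul_sum, Finset.mul_sum, ← Finset.sum_add_distrib,
    ← Finset.sum_add_distrib]
  refine Finset.sum_congr rfl fun ω _ => ?_
  have := hn ω
  interval_cases h : n ω z <;> simp <;> ring

omit [Fintype X] [DecidableEq X] in
theorem Sc_inv {W : Ω → ℝ} {n : Ω → X → ℕ} {ι : Equiv.Perm Ω}
    (hιW : ∀ ω, W (ι ω) = W ω) (hιn : ∀ ω x, n (ι ω) x + n ω x = 2) (z : X) (i : ℕ) (hi : i ≤ 2)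
    (f : Ω → ℝ) :
    Sc W n z (2 - i) f = Sc W n z i (fun ω => f (ι ω)) := by
  unfold Sc
  rw [← Equiv.sum_comp ι]
  refine Finset.sum_congr rfl fun ω _ => ?_
  rw [hιW]
  have h2 := hιn ω z
  by_cases h : n ω z = i
  · rw [if_pos h, if_pos (by omega)]
  · rw [if_neg h, if_neg (by omega)]

/-- the second order data of the network at the node `z` along `φ` -/
theorem core_setup {W : Ω → ℝ} {n : Ω → X → ℕ} {N : ℕ}
    (hN : ∀ ω, W ω ≠ 0 → ∑ x, n ω x = N) (hn : ∀ ω x, n ω x ≤ 2)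
    (hstab : ∀ ζ : X → ℂ, (∀ x, 0 < (ζ x).im) → ∑ ω, (W ω : ℂ) * ∏ x, ζ x ^ n ω x ≠ 0)
    {ι : Equiv.Perm Ω}
    (hιW : ∀ ω, W (ι ω) = W ω) (hιn : ∀ ω x, n (ι ω) x + n ω x = 2)
    (z : X) (φ : X → ℝ) (hφz : φ z = 0)
    (hZp : 0 < Sc W n z 2 (fun _ => 1))
    (σ : ℝ) (hσ0 : 0 < σ) (hσ1 : σ ≤ 1)
    (hσ : Sc W n z 2 (fun _ => 1) * (1 + σ ^ 2) = σ * Sc W n z 1 (fun _ => 1))
    (hφ : Sc W n z 2 (fun ω => ∑ x, φ x * ((n ω x : ℝ) - 1)) = 0) :
    ∃ (P B R H : ℂ → ℂ) (C2 : ℝ), Continuous P ∧ Continuous B ∧ Continuous R ∧ Continuous H ∧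
      P 0 = ((Sc W n z 2 (fun _ => 1) : ℝ) : ℂ) ∧
      B 0 = ((Sc W n z 1 (fun _ => 1) - 2 * σ * Sc W n z 2 (fun _ => 1) : ℝ) : ℂ) ∧
      (∀ s, B s = B 0 * (1 + s * ((∑ x, φ x : ℝ) : ℂ)) + s ^ 2 * H s) ∧
      (∀ (ξ : ℝ) (μ : ℂ), 0 < μ.re → P (-(I * ξ)) * μ ^ 2 + B (-(I * ξ)) * μ
        + ((-(I * ξ)) ^ 2 * (C2 : ℂ) + (-(I * ξ)) ^ 3 * R (-(I * ξ))) ≠ 0) ∧
      2 * C2 = (1 + σ ^ 2) * Sc W n z 2 (fun ω => (∑ x, φ x * ((n ω x : ℝ) - 1)) ^ 2)
      - σ * Sc W n z 1 (fun ω => (∑ x, φ x * ((n ω x : ℝ) - 1)) ^ 2)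
      + (1 - σ ^ 2) * Sc W n z 2 (fun ω => ∑ x, φ x ^ 2 * ((n ω x : ℝ) - 1)) := by
  classical
  have hstab' : ∀ ζ : X → ℂ, (∀ x, 0 < (ζ x).im) → GF W n ζ ≠ 0 := hstab
  set Zp := Sc W n z 2 (fun _ => 1) with hZpdef
  set Z0 := Sc W n z 1 (fun _ => 1) with hZ0def
  have hZm : Sc W n z 0 (fun _ => 1) = Zp := by
    have := Sc_inv hιW hιn z 2 le_rfl (fun _ => (1:ℝ))
    simpa using this
  -- value of GF with s = 0
  have hGF0 : ∀ lam : ℂ, GF W n (fun x => if x = z then lam else 1)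
      = Zp * (lam + σ) * (lam + (σ:ℂ)⁻¹) := by
    intro lam
    have h1 := GF_update W n z φ hφz 0 lam
    simp only [zero_mul, add_zero, one_pow, Finset.prod_const_one, mul_one] at h1
    rw [h1]
    have hZ0 : (Z0:ℂ) = Zp * (σ + (σ:ℂ)⁻¹) := by
      have : Z0 = Zp * (σ + σ⁻¹) := by
        field_simp
        linarith
      rw [this]; push_cast; ring
    have h2 : ∑ ω, (W ω : ℂ) * lam ^ n ω z = Zp * lam ^ 2 + Z0 * lam + Zp := by
      have e2 : ((Sc W n z 2 (fun _ => 1) : ℝ) : ℂ) = ∑ ω, if n ω z = 2 then (W ω : ℂ) else 0 := by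
        unfold Sc
        rw [Complex.ofReal_sum]
        refine Finset.sum_congr rfl fun ω _ => ?_
        split_ifs <;> simp
      have e1 : ((Sc W n z 1 (fun _ => 1) : ℝ) : ℂ) = ∑ ω, if n ω z = 1 then (W ω : ℂ) else 0 := by
        unfold Sc
        rw [Complex.ofReal_sum]
        refine Finset.sum_congr rfl fun ω _ => ?_
        split_ifs <;> simp
      have e0 : ((Sc W n z 0 (fun _ => 1) : ℝ) : ℂ) = ∑ ω, if n ω z = 0 then (W ω : ℂ) else 0 := by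
        unfold Sc
        rw [Complex.ofReal_sum]
        refine Finset.sum_congr rfl fun ω _ => ?_
        split_ifs <;> simp
      have : (Zp * lam ^ 2 + Z0 * lam + Zp : ℂ)
          = (∑ ω, if n ω z = 2 then (W ω : ℂ) else 0) * lam ^ 2
            + (∑ ω, if n ω z = 1 then (W ω : ℂ) else 0) * lam
            + ∑ ω, if n ω z = 0 then (W ω : ℂ) else 0 := by
        rw [← e2, ← e1, ← e0, hZm]
      rw [this, Finset.sum_mul, Finset.sum_mul, ← Finset.sum_add_distrib,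
        ← Finset.sum_add_distrib]
      refine Finset.sum_congr rfl fun ω _ => ?_
      have := hn ω z
      interval_cases h : n ω z <;> simp
    rw [h2, hZ0]
    have : (σ:ℂ) * (σ:ℂ)⁻¹ = 1 := mul_inv_cancel₀ (by exact_mod_cast hσ0.ne')
    linear_combination (-(Zp:ℂ)) * this
  have hσi : σ ≤ σ⁻¹ := by
    have : 1 ≤ σ⁻¹ := (one_le_inv₀ hσ0).2 hσ1
    linarith
  -- Garding
  have hG : ∀ (ξ : ℝ) (lam : ℂ), -σ < lam.re →
      GF W n (fun x => if x = z then lam else 1 + (-(I * ξ)) * (φ x : ℂ)) ≠ 0 := by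
    intro ξ lam hlam
    have h1 := garding hN hstab' (fun x => if x = z then lam.re else 1) ?_ ?_
      (fun x => if x = z then -lam.im else ξ * φ x) I (by simp)
    · have h2 : (fun x => ((if x = z then lam.re else 1 : ℝ) : ℂ) * I
          + ((if x = z then -lam.im else ξ * φ x : ℝ) : ℂ))
          = fun x => I * (if x = z then lam else 1 + (-(I * ξ)) * (φ x : ℂ)) := by
        ext x
        by_cases hx : x = z
        · simp only [hx, if_true]
          apply Complex.ext <;> simp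
        · simp only [hx, if_false]
          push_cast
          have := I_mul_I
          linear_combination ((ξ:ℂ) * φ x) * this
      rw [h2, GF_smul hN] at h1
      exact right_ne_zero_of_mul h1
    · have h2 : (fun x => ((if x = z then lam.re else 1 : ℝ) : ℂ))
          = fun x => if x = z then ((lam.re : ℝ) : ℂ) else 1 := by
        ext x; split_ifs <;> simp
      rw [h2, hGF0]
      refine mul_ne_zero (mul_ne_zero (by exact_mod_cast hZp.ne') ?_) ?_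
      · have : lam.re + σ ≠ 0 := by linarith
        exact_mod_cast this
      · have : lam.re + σ⁻¹ ≠ 0 := by linarith
        exact_mod_cast this
    · intro t α ht hα
      set u : ℂ := t + α * I with hu
      have hui : 0 < u.im := by simp [hu]; linarith
      have hu0 : u ≠ 0 := by
        intro h; rw [h] at hui; simp at hui
      have h2 : (fun x => ((if x = z then lam.re else 1 : ℝ) : ℂ) * t + (α:ℂ) * I)
          = fun x => u * (if x = z then (lam.re * t + α * I) / u else 1) := by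
        ext x
        by_cases hx : x = z
        · simp only [hx, if_true]; field_simp
        · simp only [hx, if_false]; push_cast; ring
      rw [h2, GF_smul hN, hGF0]
      have key : ∀ s : ℝ, 0 < s → 0 < lam.re + s → (lam.re * t + α * I) / u + (s:ℂ) ≠ 0 := by
        intro s hs hls h0
        have h3 : (lam.re * t + α * I) + (s:ℂ) * u = 0 := by
          have : ((lam.re * t + α * I) / u + (s:ℂ)) * u = (lam.re * t + α * I) + (s:ℂ) * u := by
            field_simp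
          rw [← this, h0, zero_mul]
        have h4 := congrArg Complex.im h3
        simp [hu] at h4
        nlinarith [mul_nonneg hls.le ht, mul_pos hα hs]
      refine mul_ne_zero (pow_ne_zero _ hu0)
        (mul_ne_zero (mul_ne_zero (by exact_mod_cast hZp.ne') ?_) ?_)
      · exact key σ hσ0 (by linarith)
      · have := key σ⁻¹ (inv_pos.2 hσ0) (by linarith)
        simpa using this
  -- the products
  let G : Ω → ℂ → ℂ := fun ω s => ∏ x, (1 + s * (φ x : ℂ)) ^ n ω x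
  let S1 : Ω → ℝ := fun ω => ∑ x, (n ω x : ℝ) * φ x
  let S2 : Ω → ℝ := fun ω => ∑ x, (n ω x : ℝ) * φ x ^ 2
  have hGex : ∀ ω, Ex2 (G ω) (S1 ω : ℂ) (S2 ω : ℂ) := by
    intro ω
    have h1 := Ex2.prod (univ : Finset X) (fun x s => (1 + s * (φ x : ℂ)) ^ n ω x)
      (fun x => (n ω x : ℂ) * (φ x : ℂ)) (fun x => (n ω x : ℂ) * (φ x : ℂ) ^ 2)
      (fun x _ => (Ex2.lin (φ x : ℂ)).pow (n ω x))
    have e1 : ((S1 ω : ℝ) : ℂ) = ∑ x, (n ω x : ℂ) * (φ x : ℂ) := by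
      simp only [S1]; push_cast; rfl
    have e2 : ((S2 ω : ℝ) : ℂ) = ∑ x, (n ω x : ℂ) * (φ x : ℂ) ^ 2 := by
      simp only [S2]; push_cast; rfl
    rw [e1, e2]
    exact h1
  choose R hRc hR using hGex
  have hGc : ∀ ω, Continuous (G ω) := by
    intro ω
    simp only [G]
    fun_prop
  let κ : ℕ → ℝ := fun k => (-σ) ^ k
  let κ1 : ℕ → ℝ := fun k => if k = 2 then -2 * σ else if k = 1 then 1 else 0
  let κ2 : ℕ → ℝ := fun k => if k = 2 then 1 else 0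
  have hpow : ∀ (k : ℕ), k ≤ 2 → ∀ μ : ℂ,
      (-(σ:ℂ) + μ) ^ k = (κ2 k : ℂ) * μ ^ 2 + (κ1 k : ℂ) * μ + (κ k : ℂ) := by
    intro k hk μ
    simp only [κ, κ1, κ2]
    interval_cases k
    · simp
    · simp; ring
    · simp; ring
  let Cf : ℂ → ℂ := fun s => ∑ ω, ((W ω * κ (n ω z) : ℝ) : ℂ) * G ω s
  let Bf : ℂ → ℂ := fun s => ∑ ω, ((W ω * κ1 (n ω z) : ℝ) : ℂ) * G ω s
  let Pf : ℂ → ℂ := fun s => ∑ ω, ((W ω * κ2 (n ω z) : ℝ) : ℂ) * G ω s
  have hquad : ∀ (s μ : ℂ), GF W n (fun x => if x = z then -(σ:ℂ) + μ else 1 + s * (φ x : ℂ))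
      = Pf s * μ ^ 2 + Bf s * μ + Cf s := by
    intro s μ
    rw [GF_update W n z φ hφz]
    simp only [Pf, Bf, Cf]
    rw [Finset.sum_mul, Finset.sum_mul, ← Finset.sum_add_distrib, ← Finset.sum_add_distrib]
    refine Finset.sum_congr rfl fun ω _ => ?_
    rw [hpow _ (hn ω z)]
    push_cast
    simp only [G]
    ring
  have hpos : ∀ (ξ : ℝ) (μ : ℂ), 0 < μ.re →
      Pf (-(I * ξ)) * μ ^ 2 + Bf (-(I * ξ)) * μ + Cf (-(I * ξ)) ≠ 0 := by
    intro ξ μ hμ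
    rw [← hquad]
    refine hG ξ _ ?_
    simp
    exact hμ
  -- sums with κ
  have hκ : ∀ f : Ω → ℝ, ∑ ω, W ω * κ (n ω z) * f ω
      = σ ^ 2 * Sc W n z 2 f - σ * Sc W n z 1 f + Sc W n z 0 f := by
    intro f
    rw [Sc_split W n z (fun ω => hn ω z) f κ]
    simp only [κ]
    ring
  -- j and q
  let J : Ω → ℝ := fun ω => ∑ x, φ x * ((n ω x : ℝ) - 1)
  let Q : Ω → ℝ := fun ω => ∑ x, φ x ^ 2 * ((n ω x : ℝ) - 1)
  have hcast : ∀ ω x, ((n (ι ω) x : ℝ) - 1) = -((n ω x : ℝ) - 1) := by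
    intro ω x
    have : ((n (ι ω) x : ℝ)) + n ω x = 2 := by exact_mod_cast hιn ω x
    linarith
  have hJ : ∀ ω, J (ι ω) = - J ω := by
    intro ω
    simp only [J, hcast, mul_neg, Finset.sum_neg_distrib]
  have hQ : ∀ ω, Q (ι ω) = - Q ω := by
    intro ω
    simp only [Q, hcast, mul_neg, Finset.sum_neg_distrib]
  have hneg : ∀ (i : ℕ) (f : Ω → ℝ), Sc W n z i (fun ω => - f ω) = - Sc W n z i f := by
    intro i f
    unfold Sc
    rw [← Finset.sum_neg_distrib]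
    refine Finset.sum_congr rfl fun ω _ => ?_
    split_ifs <;> simp
  have hodd : ∀ f : Ω → ℝ, (∀ ω, f (ι ω) = - f ω) →
      Sc W n z 1 f = 0 ∧ Sc W n z 0 f = - Sc W n z 2 f := by
    intro f hf
    have h1 := Sc_inv hιW hιn z 1 (by norm_num) f
    have h2 := Sc_inv hιW hιn z 2 le_rfl f
    simp only [hf, hneg] at h1 h2
    norm_num at h1 h2
    exact ⟨by linarith, h2⟩
  have heven : ∀ f : Ω → ℝ, (∀ ω, f (ι ω) = f ω) → Sc W n z 0 f = Sc W n z 2 f := by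
    intro f hf
    have h2 := Sc_inv hιW hιn z 2 le_rfl f
    simp only [hf] at h2
    norm_num at h2
    exact h2
  -- coefficients
  let Φ : ℝ := ∑ x, φ x
  let Φ2 : ℝ := ∑ x, φ x ^ 2
  have hS1 : ∀ ω, S1 ω = Φ + J ω := by
    intro ω
    simp only [S1, J, Φ, ← Finset.sum_add_distrib]
    exact Finset.sum_congr rfl fun x _ => by ring
  have hS2 : ∀ ω, S2 ω = Φ2 + Q ω := by
    intro ω
    simp only [S2, Q, Φ2, ← Finset.sum_add_distrib]
    exact Finset.sum_congr rfl fun x _ => by ring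
  have hC0 : ∑ ω, W ω * κ (n ω z) * 1 = 0 := by
    rw [hκ (fun _ => 1), hZm, ← hZpdef, ← hZ0def]
    linarith
  have hCJ : ∑ ω, W ω * κ (n ω z) * J ω = 0 := by
    rw [hκ J, (hodd J hJ).1, (hodd J hJ).2]
    have : Sc W n z 2 J = 0 := hφ
    rw [this]; ring
  have hC1 : ∑ ω, W ω * κ (n ω z) * S1 ω = 0 := by
    have : ∀ ω, W ω * κ (n ω z) * S1 ω
        = Φ * (W ω * κ (n ω z) * 1) + W ω * κ (n ω z) * J ω := by
      intro ω; rw [hS1]; ring
    simp only [this, Finset.sum_add_distrib, ← Finset.mul_sum, hC0, hCJ]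
    ring
  set C2 : ℝ := ∑ ω, W ω * κ (n ω z) * ((S1 ω ^ 2 - S2 ω) / 2) with hC2
  have hC2v : 2 * C2 = (1 + σ ^ 2) * Sc W n z 2 (fun ω => J ω ^ 2)
      - σ * Sc W n z 1 (fun ω => J ω ^ 2) + (1 - σ ^ 2) * Sc W n z 2 Q := by
    have h1 : ∀ ω, W ω * κ (n ω z) * ((S1 ω ^ 2 - S2 ω) / 2)
        = ((Φ ^ 2 - Φ2) / 2) * (W ω * κ (n ω z) * 1) + Φ * (W ω * κ (n ω z) * J ω)
          + (1/2) * (W ω * κ (n ω z) * (J ω ^ 2)) - (1/2) * (W ω * κ (n ω z) * Q ω) := by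
      intro ω; rw [hS1, hS2]; ring
    rw [hC2]
    simp only [h1, Finset.sum_add_distrib, Finset.sum_sub_distrib, ← Finset.mul_sum, hC0, hCJ]
    rw [hκ (fun ω => J ω ^ 2), hκ Q, (hodd Q hQ).1, (hodd Q hQ).2,
      heven (fun ω => J ω ^ 2) (fun ω => by rw [hJ]; ring)]
    ring
  -- expansion of Cf
  have hCf : ∀ s : ℂ, Cf s = s ^ 2 * (C2 : ℂ)
      + s ^ 3 * ∑ ω, ((W ω * κ (n ω z) : ℝ) : ℂ) * R ω s := by
    intro s
    have h1 : Cf s = ((∑ ω, W ω * κ (n ω z) * 1 : ℝ) : ℂ)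
        + s * ((∑ ω, W ω * κ (n ω z) * S1 ω : ℝ) : ℂ) + s ^ 2 * (C2 : ℂ)
        + s ^ 3 * ∑ ω, ((W ω * κ (n ω z) : ℝ) : ℂ) * R ω s := by
      simp only [Cf, hC2]
      push_cast
      rw [Finset.mul_sum, Finset.mul_sum, Finset.mul_sum, ← Finset.sum_add_distrib,
        ← Finset.sum_add_distrib, ← Finset.sum_add_distrib]
      refine Finset.sum_congr rfl fun ω _ => ?_
      rw [hR ω s]
      ring
    rw [h1, hC0, hC1]
    simp
  have hBc : Continuous Bf := by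
    simp only [Bf]
    exact continuous_finsetSum _ fun ω _ => continuous_const.mul (hGc ω)
  have hRRc : Continuous (fun s => ∑ ω, ((W ω * κ (n ω z) : ℝ) : ℂ) * R ω s) :=
    continuous_finsetSum _ fun ω _ => continuous_const.mul (hRc ω)
  have hB0 : Bf 0 = ((Z0 - 2 * σ * Zp : ℝ) : ℂ) := by
    have h1 : Bf 0 = ((∑ ω, W ω * κ1 (n ω z) * 1 : ℝ) : ℂ) := by
      simp only [Bf, G]
      push_cast
      simp
    rw [h1, Sc_split W n z (fun ω => hn ω z) (fun _ => 1) κ1]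
    congr 1
    simp only [κ1]
    norm_num
    rw [← hZpdef, ← hZ0def]
    ring
  have hPc : Continuous Pf := by
    simp only [Pf]
    exact continuous_finsetSum _ fun ω _ => continuous_const.mul (hGc ω)
  have hP0 : Pf 0 = (Zp : ℂ) := by
    have h1 : Pf 0 = ((∑ ω, W ω * κ2 (n ω z) * 1 : ℝ) : ℂ) := by
      simp only [Pf, G]
      push_cast
      simp
    rw [h1, Sc_split W n z (fun ω => hn ω z) (fun _ => 1) κ2]
    congr 1
    simp only [κ2]
    norm_num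
    rw [← hZpdef]
  have hBJ : ∑ ω, W ω * κ1 (n ω z) * J ω = 0 := by
    rw [Sc_split W n z (fun ω => hn ω z) J κ1, (hodd J hJ).1, (hodd J hJ).2]
    have : Sc W n z 2 J = 0 := hφ
    rw [this]; ring
  have hB1 : ∑ ω, W ω * κ1 (n ω z) * S1 ω = (∑ ω, W ω * κ1 (n ω z) * 1) * Φ := by
    have : ∀ ω, W ω * κ1 (n ω z) * S1 ω
        = (W ω * κ1 (n ω z) * 1) * Φ + W ω * κ1 (n ω z) * J ω := by
      intro ω; rw [hS1]; ring
    simp only [this, Finset.sum_add_distrib, ← Finset.sum_mul, hBJ]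
    ring
  have hBf : ∀ s : ℂ, Bf s = Bf 0 * (1 + s * ((∑ x, φ x : ℝ) : ℂ))
      + s ^ 2 * ∑ ω, ((W ω * κ1 (n ω z) : ℝ) : ℂ)
        * ((((S1 ω : ℂ) ^ 2 - (S2 ω : ℂ)) / 2) + s * R ω s) := by
    intro s
    have h0 : Bf 0 = ((∑ ω, W ω * κ1 (n ω z) * 1 : ℝ) : ℂ) := by
      simp only [Bf, G]
      push_cast
      simp
    have h1 : Bf s = ((∑ ω, W ω * κ1 (n ω z) * 1 : ℝ) : ℂ)
        + s * ((∑ ω, W ω * κ1 (n ω z) * S1 ω : ℝ) : ℂ)
        + s ^ 2 * ∑ ω, ((W ω * κ1 (n ω z) : ℝ) : ℂ)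
        * ((((S1 ω : ℂ) ^ 2 - (S2 ω : ℂ)) / 2) + s * R ω s) := by
      simp only [Bf]
      push_cast
      rw [Finset.mul_sum, Finset.mul_sum, ← Finset.sum_add_distrib,
        ← Finset.sum_add_distrib]
      refine Finset.sum_congr rfl fun ω _ => ?_
      rw [hR ω s]
      ring
    rw [h1, h0, hB1]
    simp only [Φ]
    push_cast
    ring
  refine ⟨Pf, Bf, fun s => ∑ ω, ((W ω * κ (n ω z) : ℝ) : ℂ) * R ω s,
    fun s => ∑ ω, ((W ω * κ1 (n ω z) : ℝ) : ℂ)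
        * ((((S1 ω : ℂ) ^ 2 - (S2 ω : ℂ)) / 2) + s * R ω s), C2, hPc, hBc, hRRc, ?_, hP0, hB0,
    hBf, ?_, hC2v⟩
  · exact continuous_finsetSum _ fun ω _ => continuous_const.mul
      (continuous_const.add (continuous_id.mul (hRc ω)))
  · intro ξ μ hμ
    have := hpos ξ μ hμ
    rwa [hCf] at this

/-- core inequality, `σ < 1` -/
theorem one_node_core {W : Ω → ℝ} {n : Ω → X → ℕ} {N : ℕ}
    (hN : ∀ ω, W ω ≠ 0 → ∑ x, n ω x = N) (hn : ∀ ω x, n ω x ≤ 2)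
    (hstab : ∀ ζ : X → ℂ, (∀ x, 0 < (ζ x).im) → ∑ ω, (W ω : ℂ) * ∏ x, ζ x ^ n ω x ≠ 0)
    {ι : Equiv.Perm Ω}
    (hιW : ∀ ω, W (ι ω) = W ω) (hιn : ∀ ω x, n (ι ω) x + n ω x = 2)
    (z : X) (φ : X → ℝ) (hφz : φ z = 0)
    (hZp : 0 < Sc W n z 2 (fun _ => 1))
    (σ : ℝ) (hσ0 : 0 < σ) (hσ1 : σ ≤ 1)
    (hσ : Sc W n z 2 (fun _ => 1) * (1 + σ ^ 2) = σ * Sc W n z 1 (fun _ => 1))
    (hφ : Sc W n z 2 (fun ω => ∑ x, φ x * ((n ω x : ℝ) - 1)) = 0) :
    (1 + σ ^ 2) * Sc W n z 2 (fun ω => (∑ x, φ x * ((n ω x : ℝ) - 1)) ^ 2)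
      - σ * Sc W n z 1 (fun ω => (∑ x, φ x * ((n ω x : ℝ) - 1)) ^ 2)
      + (1 - σ ^ 2) * Sc W n z 2 (fun ω => ∑ x, φ x ^ 2 * ((n ω x : ℝ) - 1)) ≤ 0 := by
  obtain ⟨P, B, R, H, C2, hPc, hBc, hRc, hHc, hP0, hB0, hBs, hne, hC2⟩ :=
    core_setup hN hn hstab hιW hιn z φ hφz hZp σ hσ0 hσ1 hσ hφ
  set Zp := Sc W n z 2 (fun _ => 1) with hZpdef
  set Z0 := Sc W n z 1 (fun _ => 1) with hZ0def
  rw [← hC2]
  rcases hσ1.lt_or_eq with hlt | heq
  · have hB0pos : 0 < Z0 - 2 * σ * Zp := by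
      have h1 : σ * (Z0 - 2 * σ * Zp) = Zp * (1 - σ ^ 2) := by linarith
      have h2 : 0 < Zp * (1 - σ ^ 2) := mul_pos hZp (by nlinarith)
      rw [← h1] at h2
      exact (mul_pos_iff_of_pos_left hσ0).1 h2
    have hfin : C2 ≤ 0 :=
      limit_step (B := B) hBc hRc hB0 hB0pos fun ξ =>
        quad_halfplane (P (-(I * ξ))) _ _ fun μ hμ => hne ξ μ hμ
    linarith
  · -- σ = 1
    subst heq
    have hB00 : B 0 = 0 := by
      rw [hB0]
      have : Z0 - 2 * 1 * Zp = 0 := by linarith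
      rw [this]; simp
    by_contra hcon
    push_neg at hcon
    have hC2pos : 0 < C2 := by linarith
    set ν : ℝ := Real.sqrt (C2 / Zp) with hν
    have hνpos : 0 < ν := Real.sqrt_pos.2 (div_pos hC2pos hZp)
    have hν2 : Zp * ν ^ 2 = C2 := by
      rw [hν, Real.sq_sqrt (div_pos hC2pos hZp).le]
      field_simp
    have hineq : ∀ ξ : ℝ, 0 < ξ → ‖P (-(I * ξ))‖ * ν ^ 2 ≤
        ‖P (-(I * ξ)) * ν ^ 2 - ξ * ν * H (-(I * ξ)) - C2 + I * ξ * R (-(I * ξ))‖ := by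
      intro ξ hξ
      have h1 := quad_lower (P (-(I * ξ))) _ _ (hne ξ) ((ξ * ν : ℝ) : ℂ)
        (by rw [Complex.ofReal_re]; positivity)
      rw [Complex.ofReal_re] at h1
      have e : P (-(I * ξ)) * ((ξ * ν : ℝ) : ℂ) ^ 2 + B (-(I * ξ)) * ((ξ * ν : ℝ) : ℂ)
          + ((-(I * (ξ:ℂ))) ^ 2 * (C2 : ℂ) + (-(I * (ξ:ℂ))) ^ 3 * R (-(I * ξ)))
          = ((ξ ^ 2 : ℝ) : ℂ) * (P (-(I * ξ)) * ν ^ 2 - ξ * ν * H (-(I * ξ)) - C2
              + I * ξ * R (-(I * ξ))) := by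
        rw [hBs, hB00]
        have hI3 : (I:ℂ) ^ 3 = -I := by rw [pow_succ, I_sq]; ring
        push_cast
        ring_nf
        rw [hI3, I_sq]
        ring
      rw [e, norm_mul, Complex.norm_real, Real.norm_of_nonneg (by positivity)] at h1
      have hx2 : 0 < ξ ^ 2 := by positivity
      have h2 : ξ ^ 2 * (‖P (-(I * ξ))‖ * ν ^ 2) ≤ ξ ^ 2 *
          ‖P (-(I * ξ)) * ν ^ 2 - ξ * ν * H (-(I * ξ)) - C2 + I * ξ * R (-(I * ξ))‖ := by
        calc ξ ^ 2 * (‖P (-(I * ξ))‖ * ν ^ 2) = ‖P (-(I * ξ))‖ * (ξ * ν) ^ 2 := by ring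
          _ ≤ _ := h1
      exact le_of_mul_le_mul_left h2 hx2
    have hcl : Continuous (fun ξ : ℝ => ‖P (-(I * ξ))‖ * ν ^ 2) := by
      have hc1 : Continuous (fun ξ : ℝ => (-(I * (ξ:ℂ)))) := by fun_prop
      exact (hPc.comp hc1).norm.mul continuous_const
    have hcr : Continuous (fun ξ : ℝ =>
        ‖P (-(I * ξ)) * ν ^ 2 - ξ * ν * H (-(I * ξ)) - C2 + I * ξ * R (-(I * ξ))‖) := by
      have hc1 : Continuous (fun ξ : ℝ => (-(I * (ξ:ℂ)))) := by fun_prop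
      have a1 := hPc.comp hc1
      have a2 := hHc.comp hc1
      have a3 := hRc.comp hc1
      refine ((((a1.mul continuous_const).sub
        ((by fun_prop : Continuous fun ξ : ℝ => (ξ:ℂ) * ν).mul a2)).sub
        continuous_const).add ((by fun_prop : Continuous fun ξ : ℝ => I * (ξ:ℂ)).mul a3)).norm
    have hlim := le_of_tendsto_of_tendsto
      ((hcl.tendsto 0).mono_left (nhdsWithin_le_nhds (s := Set.Ioi 0)))
      ((hcr.tendsto 0).mono_left (nhdsWithin_le_nhds (s := Set.Ioi 0)))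
      (by filter_upwards [self_mem_nhdsWithin] with ξ hξ using hineq ξ hξ)
    simp only [Complex.ofReal_zero, mul_zero, neg_zero, hP0, zero_mul, sub_zero, add_zero] at hlim
    have e2 : ((Zp : ℝ) : ℂ) * (ν:ℂ) ^ 2 - (C2 : ℂ) = 0 := by
      rw [← hν2]; push_cast; ring
    rw [e2, norm_zero, Complex.norm_real, Real.norm_of_nonneg hZp.le] at hlim
    have : 0 < Zp * ν ^ 2 := by positivity
    linarith

end Vale.Agent.P361.LRO.ON
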