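import Mathlib

/-!
Garding homotopy for generating functions of charges (P361, step (2), Theorem 1).
-/

set_option autoImplicit false

namespace Vale.Agent.P361.LRO.ON

open Finset Complex

variable {X Ω : Type*} [Fintype X] [DecidableEq X] [Fintype Ω]

/-- generating function of the counts `n ω x` with weights `W ω` -/
noncomputable def GF (W : Ω → ℝ) (n : Ω → X → ℕ) (ζ : X → ℂ) : ℂ :=
  ∑ ω, (W ω : ℂ) * ∏ x, ζ x ^ n ω x

theorem GF_smul {W : Ω → ℝ} {n : Ω → X → ℕ} {N : ℕ}
    (hN : ∀ ω, W ω ≠ 0 → ∑ x, n ω x = N) (c : ℂ) (ζ : X → ℂ) :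
    GF W n (fun x => c * ζ x) = c ^ N * GF W n ζ := by
  unfold GF
  rw [Finset.mul_sum]
  refine Finset.sum_congr rfl fun ω _ => ?_
  by_cases h : W ω = 0
  · simp [h]
  · rw [← hN ω h]
    simp only [mul_pow, Finset.prod_mul_distrib, Finset.prod_pow_eq_pow_sum]
    ring

theorem GF_continuous {W : Ω → ℝ} {n : Ω → X → ℕ} : Continuous (GF W n) := by
  unfold GF
  fun_prop

/-- the polynomial `t ↦ GF (t e + v)` -/
noncomputable def lineP (W : Ω → ℝ) (n : Ω → X → ℕ) (e v : X → ℂ) : Polynomial ℂ :=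
  ∑ ω, Polynomial.C (W ω : ℂ) *
    ∏ x, (Polynomial.C (e x) * Polynomial.X + Polynomial.C (v x)) ^ n ω x

theorem eval_lineP (W : Ω → ℝ) (n : Ω → X → ℕ) (e v : X → ℂ) (t : ℂ) :
    (lineP W n e v).eval t = GF W n (fun x => e x * t + v x) := by
  unfold lineP GF
  simp [Polynomial.eval_finset_sum, Polynomial.eval_prod]

theorem prod_deg_coeff (e v : X → ℂ) (k : X → ℕ) (s : Finset X) :
    (∏ x ∈ s, (Polynomial.C (e x) * Polynomial.X + Polynomial.C (v x)) ^ k x).natDegree
        ≤ ∑ x ∈ s, k x ∧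
      (∏ x ∈ s, (Polynomial.C (e x) * Polynomial.X + Polynomial.C (v x)) ^ k x).coeff
        (∑ x ∈ s, k x) = ∏ x ∈ s, e x ^ k x := by
  induction s using Finset.induction_on with
  | empty => simp
  | insert a s ha ih =>
    have hd1 : (Polynomial.C (e a) * Polynomial.X + Polynomial.C (v a)).natDegree ≤ 1 :=
      Polynomial.natDegree_linear_le
    have hd : ((Polynomial.C (e a) * Polynomial.X + Polynomial.C (v a)) ^ k a).natDegree
        ≤ k a := by
      refine Polynomial.natDegree_pow_le.trans ?_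
      calc k a * _ ≤ k a * 1 := Nat.mul_le_mul_left _ hd1
        _ = k a := by ring
    have hc : ((Polynomial.C (e a) * Polynomial.X + Polynomial.C (v a)) ^ k a).coeff (k a)
        = e a ^ k a := by
      have := Polynomial.coeff_pow_of_natDegree_le (m := k a) hd1
      rw [mul_one] at this
      rw [this]
      simp
    rw [Finset.prod_insert ha, Finset.sum_insert ha, Finset.prod_insert ha]
    refine ⟨?_, ?_⟩
    · exact Polynomial.natDegree_mul_le.trans (add_le_add hd ih.1)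
    · rw [Polynomial.coeff_mul_add_eq_of_natDegree_le hd ih.1, hc, ih.2]

theorem natDegree_lineP_le {W : Ω → ℝ} {n : Ω → X → ℕ} {N : ℕ}
    (hN : ∀ ω, W ω ≠ 0 → ∑ x, n ω x = N) (e v : X → ℂ) :
    (lineP W n e v).natDegree ≤ N := by
  unfold lineP
  refine Polynomial.natDegree_sum_le_of_forall_le _ _ fun ω _ => ?_
  by_cases h : W ω = 0
  · simp [h]
  · refine (Polynomial.natDegree_C_mul_le _ _).trans ?_
    rw [← hN ω h]
    exact (prod_deg_coeff e v (n ω) univ).1

theorem coeff_lineP {W : Ω → ℝ} {n : Ω → X → ℕ} {N : ℕ}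
    (hN : ∀ ω, W ω ≠ 0 → ∑ x, n ω x = N) (e v : X → ℂ) :
    (lineP W n e v).coeff N = GF W n e := by
  unfold lineP GF
  rw [Polynomial.finset_sum_coeff]
  refine Finset.sum_congr rfl fun ω _ => ?_
  by_cases h : W ω = 0
  · simp [h]
  · rw [Polynomial.coeff_C_mul, ← hN ω h, (prod_deg_coeff e v (n ω) univ).2]

/-- lower bound for a polynomial without zeros in the closed upper half plane -/
theorem poly_lower {p : Polynomial ℂ} {N : ℕ} {c : ℂ} (hd : p.natDegree ≤ N)
    (hc : p.coeff N = c) (hc0 : c ≠ 0)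
    (hroot : ∀ t : ℂ, 0 ≤ t.im → p.eval t ≠ 0) (t : ℂ) (ht : 0 ≤ t.im) :
    ‖c‖ * t.im ^ N ≤ ‖p.eval t‖ := by
  have hdeg : p.natDegree = N := le_antisymm hd (by
    by_contra h
    push_neg at h
    rw [Polynomial.coeff_eq_zero_of_natDegree_lt h] at hc
    exact hc0 hc.symm)
  have hlead : p.leadingCoeff = c := by
    rw [Polynomial.leadingCoeff, hdeg, hc]
  have hsp := IsAlgClosed.splits p
  rw [hsp.eval_eq_prod_roots t, hlead, norm_mul]
  refine mul_le_mul_of_nonneg_left ?_ (norm_nonneg _)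
  have hcard : Multiset.card p.roots = N := by
    rw [← hdeg]; exact (hsp.natDegree_eq_card_roots).symm
  have hr : ∀ a ∈ p.roots, a.im < 0 := by
    intro a ha
    by_contra h
    push_neg at h
    have hp0 : p ≠ 0 := by
      rintro rfl
      simp at ha
    exact hroot a h ((Polynomial.mem_roots hp0).1 ha)
  rw [← hcard]
  clear hcard hlead hdeg hc hd
  generalize p.roots = m at hr
  induction m using Multiset.induction_on with
  | empty => simp
  | cons a m ih =>
    have h1 := ih (fun b hb => hr b (Multiset.mem_cons_of_mem hb))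
    have h2 := hr a (Multiset.mem_cons_self a m)
    rw [Multiset.card_cons, Multiset.map_cons, Multiset.prod_cons, norm_mul, pow_succ,
      mul_comm (t.im ^ _)]
    refine mul_le_mul ?_ h1 (by positivity) (norm_nonneg _)
    have h3 : t.im ≤ (t - a).im := by
      rw [Complex.sub_im]; linarith
    exact h3.trans ((le_abs_self _).trans (Complex.abs_im_le_norm _))

/-- **Garding homotopy.**  `e` is a real vector such that `GF (t e + iα) ≠ 0` for `Im t ≥ 0`,
`α > 0`; then `GF (t e + y) ≠ 0` for all real `y` and `Im t > 0`. -/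
theorem garding {W : Ω → ℝ} {n : Ω → X → ℕ} {N : ℕ}
    (hN : ∀ ω, W ω ≠ 0 → ∑ x, n ω x = N)
    (hstab : ∀ ζ : X → ℂ, (∀ x, 0 < (ζ x).im) → GF W n ζ ≠ 0)
    (e : X → ℝ) (he0 : GF W n (fun x => (e x : ℂ)) ≠ 0)
    (he : ∀ (t : ℂ) (α : ℝ), 0 ≤ t.im → 0 < α →
      GF W n (fun x => (e x : ℂ) * t + (α : ℂ) * I) ≠ 0)
    (y : X → ℝ) (t : ℂ) (ht : 0 < t.im) :
    GF W n (fun x => (e x : ℂ) * t + (y x : ℂ)) ≠ 0 := by
  classical
  set c : ℂ := GF W n (fun x => (e x : ℂ)) with hc
  -- the vector at parameter τ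
  let v : ℝ → ℝ → X → ℂ := fun α τ x => (τ : ℂ) * (y x : ℂ) + (α : ℂ) * I
  -- nonvanishing on the real axis
  have hreal : ∀ (α τ : ℝ) (t : ℂ), 0 < α → t.im = 0 →
      GF W n (fun x => (e x : ℂ) * t + v α τ x) ≠ 0 := by
    intro α τ t hα ht
    refine hstab _ fun x => ?_
    simp [v, ht]
    exact hα
  -- good: lower bound
  have hlow : ∀ (α τ : ℝ), (∀ t : ℂ, 0 ≤ t.im →
      GF W n (fun x => (e x : ℂ) * t + v α τ x) ≠ 0) →
      ∀ t : ℂ, 0 ≤ t.im → ‖c‖ * t.im ^ N ≤ ‖GF W n (fun x => (e x : ℂ) * t + v α τ x)‖ := by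
    intro α τ h t ht
    have h1 := poly_lower (p := lineP W n (fun x => (e x : ℂ)) (v α τ)) (c := c)
      (natDegree_lineP_le hN _ _) (coeff_lineP hN _ _) he0
      (fun t ht => by rw [eval_lineP]; exact h t ht) t ht
    rwa [eval_lineP] at h1
  -- zeros are bounded
  have hbdd : ∀ α : ℝ, ∃ R : ℝ, 0 < R ∧ ∀ τ ∈ Set.Icc (0:ℝ) 1, ∀ t : ℂ, R < ‖t‖ →
      GF W n (fun x => (e x : ℂ) * t + v α τ x) ≠ 0 := by
    intro α
    have hcont : ContinuousAt (GF W n) (fun x => (e x : ℂ)) := GF_continuous.continuousAt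
    obtain ⟨δ, hδ, hδ'⟩ := Metric.eventually_nhds_iff.1
      (hcont.eventually_ne he0)
    set B : ℝ := ∑ x, |y x| + |α| + 1 with hB
    have hBpos : 0 < B := by
      have : 0 ≤ ∑ x, |y x| := Finset.sum_nonneg fun _ _ => abs_nonneg _
      positivity
    refine ⟨B / δ, by positivity, ?_⟩
    intro τ hτ t htR
    have htpos : 0 < ‖t‖ := lt_trans (by positivity) htR
    have ht0 : t ≠ 0 := norm_pos_iff.1 htpos
    have hvb : ∀ x, ‖v α τ x‖ ≤ B := by
      intro x
      have h1 : ‖v α τ x‖ ≤ ‖(τ : ℂ) * (y x : ℂ)‖ + ‖(α : ℂ) * I‖ := norm_add_le _ _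
      have h2 : ‖(τ : ℂ) * (y x : ℂ)‖ ≤ |y x| := by
        rw [norm_mul, Complex.norm_real, Complex.norm_real, Real.norm_eq_abs, Real.norm_eq_abs,
          abs_of_nonneg hτ.1]
        exact mul_le_of_le_one_left (abs_nonneg _) hτ.2
      have h3 : ‖(α : ℂ) * I‖ = |α| := by simp
      have h4 : |y x| ≤ ∑ x, |y x| :=
        Finset.single_le_sum (f := fun x => |y x|) (fun _ _ => abs_nonneg _) (Finset.mem_univ x)
      rw [h3] at h1
      linarith
    have hkey : GF W n (fun x => (e x : ℂ) * t + v α τ x)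
        = t ^ N * GF W n (fun x => (e x : ℂ) + v α τ x / t) := by
      rw [← GF_smul hN]
      congr 1
      ext x
      field_simp
    rw [hkey]
    refine mul_ne_zero (pow_ne_zero _ ht0) (hδ' ?_)
    rw [dist_pi_lt_iff hδ]
    intro x
    rw [dist_eq_norm, add_sub_cancel_left, norm_div, div_lt_iff₀ htpos]
    calc ‖v α τ x‖ ≤ B := hvb x
      _ = B / δ * δ := by field_simp
      _ < ‖t‖ * δ := by gcongr
      _ = δ * ‖t‖ := by ring
  -- main claim for α > 0
  have hmain : ∀ α : ℝ, 0 < α → ∀ t : ℂ, 0 ≤ t.im →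
      GF W n (fun x => (e x : ℂ) * t + v α 1 x) ≠ 0 := by
    intro α hα
    obtain ⟨R, hR, hRb⟩ := hbdd α
    -- jointly continuous function
    have hjc : Continuous (fun p : ℝ × ℂ => GF W n (fun x => (e x : ℂ) * p.2 + v α p.1 x)) := by
      refine GF_continuous.comp ?_
      refine continuous_pi fun x => ?_
      simp only [v]
      fun_prop
    set Good : Set ℝ := {τ | ∀ t : ℂ, 0 ≤ t.im →
      ‖c‖ * t.im ^ N ≤ ‖GF W n (fun x => (e x : ℂ) * t + v α τ x)‖} with hGood
    have hGclosed : IsClosed Good := by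
      have : Good = ⋂ (t : ℂ) (_ : 0 ≤ t.im),
          {τ : ℝ | ‖c‖ * t.im ^ N ≤ ‖GF W n (fun x => (e x : ℂ) * t + v α τ x)‖} := by
        ext τ
        simp [hGood]
      rw [this]
      refine isClosed_iInter fun t => isClosed_iInter fun _ => ?_
      refine isClosed_le continuous_const ?_
      have := hjc.comp (Continuous.prodMk continuous_id (continuous_const (y := t)))
      exact this.norm
    have hGne : ∀ τ ∈ Good, ∀ t : ℂ, 0 ≤ t.im →
        GF W n (fun x => (e x : ℂ) * t + v α τ x) ≠ 0 := by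
      intro τ hτ t ht
      rcases ht.eq_or_lt with h | h
      · exact hreal α τ t hα h.symm
      · intro h0
        have h1 := hτ t ht
        rw [h0, norm_zero] at h1
        have : 0 < ‖c‖ * t.im ^ N := mul_pos (norm_pos_iff.2 he0) (pow_pos h _)
        linarith
    -- bad set: projection of a compact set
    set K : Set (ℝ × ℂ) := (Set.Icc (0:ℝ) 1 ×ˢ Metric.closedBall (0:ℂ) R) ∩
      {p | 0 ≤ p.2.im ∧ GF W n (fun x => (e x : ℂ) * p.2 + v α p.1 x) = 0} with hK
    have hKc : IsCompact K := by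
      refine IsCompact.inter_right (isCompact_Icc.prod (isCompact_closedBall _ _)) ?_
      have h1 : IsClosed {p : ℝ × ℂ | 0 ≤ p.2.im} :=
        isClosed_le continuous_const (Complex.continuous_im.comp continuous_snd)
      have h2 : IsClosed {p : ℝ × ℂ |
          GF W n (fun x => (e x : ℂ) * p.2 + v α p.1 x) = 0} :=
        isClosed_eq hjc continuous_const
      exact h1.inter h2
    set Bad : Set ℝ := Prod.fst '' K with hBad
    have hBadc : IsClosed Bad := (hKc.image continuous_fst).isClosed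
    have hcover : Set.Icc (0:ℝ) 1 ⊆ Good ∪ Bad := by
      intro τ hτ
      by_cases h : ∀ t : ℂ, 0 ≤ t.im →
        GF W n (fun x => (e x : ℂ) * t + v α τ x) ≠ 0
      · exact Or.inl (hlow α τ h)
      · push_neg at h
        obtain ⟨t, ht, h0⟩ := h
        refine Or.inr ⟨(τ, t), ⟨⟨hτ, ?_⟩, ht, h0⟩, rfl⟩
        rw [mem_closedBall_zero_iff]
        by_contra hlt
        push_neg at hlt
        exact hRb τ hτ t hlt h0
    have hGB : ¬ (Set.Icc (0:ℝ) 1 ∩ (Good ∩ Bad)).Nonempty := by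
      rintro ⟨τ, hτ, hg, ⟨⟨τ', t⟩, ⟨_, ht, h0⟩, rfl⟩⟩
      exact hGne _ hg t ht h0
    have h0good : (0:ℝ) ∈ Good := by
      refine hlow α 0 fun t ht => ?_
      have := he t α ht hα
      simpa [v] using this
    have hnobad : ¬ (Set.Icc (0:ℝ) 1 ∩ Bad).Nonempty := by
      intro hb
      exact hGB (isPreconnected_closed_iff.1 isPreconnected_Icc Good Bad hGclosed hBadc hcover
        ⟨0, by simp, h0good⟩ hb)
    have h1good : (1:ℝ) ∈ Good := by
      rcases hcover (show (1:ℝ) ∈ Set.Icc (0:ℝ) 1 by simp) with h | h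
      · exact h
      · exact absurd ⟨1, by simp, h⟩ hnobad
    exact hGne 1 h1good
  -- let α → 0
  have hlim : ‖c‖ * t.im ^ N ≤ ‖GF W n (fun x => (e x : ℂ) * t + (y x : ℂ))‖ := by
    have hc1 : Continuous (fun α : ℝ => ‖GF W n (fun x => (e x : ℂ) * t + v α 1 x)‖) := by
      refine (GF_continuous.comp ?_).norm
      refine continuous_pi fun x => ?_
      simp only [v]
      fun_prop
    have hten : Filter.Tendsto (fun α : ℝ => ‖GF W n (fun x => (e x : ℂ) * t + v α 1 x)‖)
        (nhdsWithin 0 (Set.Ioi 0)) (nhds ‖GF W n (fun x => (e x : ℂ) * t + v 0 1 x)‖) :=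
      (hc1.tendsto 0).mono_left nhdsWithin_le_nhds
    have h2 := ge_of_tendsto hten (b := ‖c‖ * t.im ^ N) (by
      filter_upwards [self_mem_nhdsWithin] with α hα
      exact hlow α 1 (hmain α hα) t ht.le)
    simpa [v] using h2
  intro h0
  rw [h0, norm_zero] at hlim
  have : 0 < ‖c‖ * t.im ^ N := mul_pos (norm_pos_iff.2 he0) (pow_pos ht _)
  linarith

end Vale.Agent.P361.LRO.ON
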