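import Vale.Agent.P361.LRO.ON.Core

/-!
Theorem 1 (star-mesh inequality) in the `Ω`-form.
-/

set_option autoImplicit false

namespace Vale.Agent.P361.LRO.ON

open Finset Complex

variable {V Ω : Type*} [Fintype V] [DecidableEq V] [Fintype Ω]

/-- sum over `{n_z ≠ 1}` -/
noncomputable def SA (W : Ω → ℝ) (n : Ω → V → ℕ) (z : V) (f : Ω → ℝ) : ℝ :=
  ∑ ω, if n ω z = 1 then 0 else W ω * f ω

/-- sum over `{n_z = 1}` -/
noncomputable def SB (W : Ω → ℝ) (n : Ω → V → ℕ) (z : V) (f : Ω → ℝ) : ℝ :=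
  ∑ ω, if n ω z = 1 then W ω * f ω else 0

omit [Fintype V] [DecidableEq V] in
theorem SA_eq (W : Ω → ℝ) (n : Ω → V → ℕ) (z : V) (hn : ∀ ω x, n ω x ≤ 2) (f : Ω → ℝ) :
    SA W n z f = Sc W n z 2 f + Sc W n z 0 f := by
  unfold SA Sc
  rw [← Finset.sum_add_distrib]
  refine Finset.sum_congr rfl fun ω _ => ?_
  have := hn ω z
  interval_cases h : n ω z <;> simp

omit [Fintype V] [DecidableEq V] in
theorem SB_eq (W : Ω → ℝ) (n : Ω → V → ℕ) (z : V) (f : Ω → ℝ) :
    SB W n z f = Sc W n z 1 f := rfl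

/-- `w_A ≤ w_B` from stability -/
theorem wA_le_wB {W : Ω → ℝ} {n : Ω → V → ℕ} {N : ℕ}
    (hN : ∀ ω, W ω ≠ 0 → ∑ x, n ω x = N) (hn : ∀ ω x, n ω x ≤ 2)
    (hstab : ∀ ζ : V → ℂ, (∀ x, 0 < (ζ x).im) → ∑ ω, (W ω : ℂ) * ∏ x, ζ x ^ n ω x ≠ 0)
    (z : V) (hW : ∀ ω, 0 ≤ W ω)
    (hZm : Sc W n z 0 (fun _ => 1) = Sc W n z 2 (fun _ => 1)) :
    2 * Sc W n z 2 (fun _ => 1) ≤ Sc W n z 1 (fun _ => 1) := by
  have hstab' : ∀ ζ : V → ℂ, (∀ x, 0 < (ζ x).im) → GF W n ζ ≠ 0 := hstab
  set Zp := Sc W n z 2 (fun _ => 1) with hZpdef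
  set Z0 := Sc W n z 1 (fun _ => 1) with hZ0def
  by_contra hlt
  push_neg at hlt
  have hZ0nn : 0 ≤ Z0 := by
    rw [hZ0def]; unfold Sc
    refine Finset.sum_nonneg fun ω _ => ?_
    split_ifs
    · simpa using hW ω
    · exact le_rfl
  have hZp : 0 < Zp := by linarith
  -- root in the upper half plane
  set d : ℝ := Real.sqrt (4 * Zp ^ 2 - Z0 ^ 2) with hd
  have hdpos : 0 < d := Real.sqrt_pos.2 (by nlinarith)
  have hd2 : d ^ 2 = 4 * Zp ^ 2 - Z0 ^ 2 := Real.sq_sqrt (by nlinarith)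
  set lam : ℂ := ⟨-Z0 / (2 * Zp), d / (2 * Zp)⟩ with hlam
  have hlamim : lam.im = d / (2 * Zp) := rfl
  have hlamre : lam.re = -Z0 / (2 * Zp) := rfl
  have himpos : 0 < lam.im := by rw [hlamim]; positivity
  have hroot : (Zp : ℂ) * lam ^ 2 + Z0 * lam + Zp = 0 := by
    apply Complex.ext
    · simp only [add_re, mul_re, pow_two, ofReal_re, ofReal_im, hlamre, hlamim, mul_im, zero_re]
      field_simp
      nlinarith [hd2]
    · simp only [add_im, mul_im, mul_re, pow_two, ofReal_re, ofReal_im, hlamre, hlamim, zero_im]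
      field_simp
      ring
  have hval : GF W n (fun x => if x = z then lam else 1) = 0 := by
    have h1 := GF_update W n z (fun _ => 0) rfl 0 lam
    simp only [ofReal_zero, zero_mul, add_zero, one_pow, Finset.prod_const_one, mul_one] at h1
    rw [h1]
    have e2 : ((Sc W n z 2 (fun _ => 1) : ℝ) : ℂ) = ∑ ω, if n ω z = 2 then (W ω : ℂ) else 0 := by
      unfold Sc
      rw [Complex.ofReal_sum]
      refine Finset.sum_congr rfl fun ω _ => ?_
      split_ifs <;> simp
    have e1 : ((Sc W n z 1 (fun _ => 1) : ℝ) : ℂ) = ∑ ω, if n ω z = 1 then (W ω : ℂ) else 0 := by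
      unfold Sc
      rw [Complex.ofReal_sum]
      refine Finset.sum_congr rfl fun ω _ => ?_
      split_ifs <;> simp
    have e0 : ((Sc W n z 0 (fun _ => 1) : ℝ) : ℂ) = ∑ ω, if n ω z = 0 then (W ω : ℂ) else 0 := by
      unfold Sc
      rw [Complex.ofReal_sum]
      refine Finset.sum_congr rfl fun ω _ => ?_
      split_ifs <;> simp
    have : (Zp * lam ^ 2 + Z0 * lam + Zp : ℂ)
        = (∑ ω, if n ω z = 2 then (W ω : ℂ) else 0) * lam ^ 2
          + (∑ ω, if n ω z = 1 then (W ω : ℂ) else 0) * lam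
          + ∑ ω, if n ω z = 0 then (W ω : ℂ) else 0 := by
      rw [← e2, ← e1, ← e0, hZm]
    rw [← hroot, this, Finset.sum_mul, Finset.sum_mul, ← Finset.sum_add_distrib,
      ← Finset.sum_add_distrib]
    refine Finset.sum_congr rfl fun ω _ => ?_
    have := hn ω z
    interval_cases h : n ω z <;> simp
  -- rotate
  set δ : ℝ := lam.im / (|lam.re| + 1) / 2 with hδ
  have hδpos : 0 < δ := by positivity
  have h3 := hstab' (fun x => (1 + δ * I) * (if x = z then lam else 1)) (by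
    intro x
    by_cases hx : x = z
    · simp only [hx, if_true]
      simp only [mul_im, add_re, add_im, one_re, one_im, mul_re, ofReal_re, ofReal_im, I_re, I_im]
      have h4 : δ * |lam.re| ≤ lam.im / 2 := by
        have h5 : δ * (|lam.re| + 1) = lam.im / 2 := by
          rw [hδ]; field_simp
        nlinarith [abs_nonneg lam.re]
      have h6 : -|lam.re| ≤ lam.re := neg_abs_le _
      nlinarith
    · simp only [hx, if_false]
      simp
      exact hδpos)
  rw [GF_smul hN, hval, mul_zero] at h3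
  exact h3 rfl

/-- **Theorem 1 (star-mesh inequality).** -/
theorem star_mesh (W : Ω → ℝ) (hW : ∀ ω, 0 ≤ W ω) (n : Ω → V → ℕ) (hn : ∀ ω x, n ω x ≤ 2)
    {N : ℕ} (hV : N = Fintype.card V)
    (hN : ∀ ω, W ω ≠ 0 → ∑ x, n ω x = N)
    (ι : Equiv.Perm Ω) (hιW : ∀ ω, W (ι ω) = W ω) (hιn : ∀ ω x, n (ι ω) x + n ω x = 2)
    (hstab : ∀ ζ : V → ℂ, (∀ x, 0 < (ζ x).im) → ∑ ω, (W ω : ℂ) * ∏ x, ζ x ^ n ω x ≠ 0)
    (z : V) (a : V → ℝ) (wA wB : ℝ) (hwA : wA = SA W n z (fun _ => 1))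
    (hwB : wB = SB W n z (fun _ => 1))
    (p : V → ℝ)
    (hp : ∀ x, p x = SA W n z (fun ω => -((n ω z : ℝ) - 1) * ((n ω x : ℝ) - 1)) / wA)
    (ab L ε : ℝ) (hab : ab = ∑ x, p x * (a x - a z)) (hL : L = ∑ x, p x * (a x - a z) ^ 2)
    (hε : ε = Real.sqrt (1 - 2 * wA / (wA + wB))) :
    2 * wA ≤ wA + wB ∧
    SA W n z (fun ω => (∑ x, a x * ((n ω x : ℝ) - 1)) ^ 2) / wA
      - SB W n z (fun ω => (∑ x, a x * ((n ω x : ℝ) - 1)) ^ 2) / wB
      ≤ ab ^ 2 + (2 * ε / (1 + ε ^ 2)) * (L - ab ^ 2) := by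
  classical
  -- symmetries
  have hcast : ∀ ω x, ((n (ι ω) x : ℝ) - 1) = -((n ω x : ℝ) - 1) := by
    intro ω x
    have : ((n (ι ω) x : ℝ)) + n ω x = 2 := by exact_mod_cast hιn ω x
    linarith
  have hneg : ∀ (i : ℕ) (f : Ω → ℝ), Sc W n z i (fun ω => - f ω) = - Sc W n z i f := by
    intro i f
    unfold Sc
    rw [← Finset.sum_neg_distrib]
    refine Finset.sum_congr rfl fun ω _ => ?_
    split_ifs <;> simp
  have hodd : ∀ f : Ω → ℝ, (∀ ω, f (ι ω) = - f ω) → Sc W n z 0 f = - Sc W n z 2 f := by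
    intro f hf
    have h2 := Sc_inv hιW hιn z 2 le_rfl f
    simp only [hf, hneg] at h2
    norm_num at h2
    exact h2
  have heven : ∀ f : Ω → ℝ, (∀ ω, f (ι ω) = f ω) → Sc W n z 0 f = Sc W n z 2 f := by
    intro f hf
    have h2 := Sc_inv hιW hιn z 2 le_rfl f
    simp only [hf] at h2
    norm_num at h2
    exact h2
  set Zp := Sc W n z 2 (fun _ => 1) with hZpdef
  set Z0 := Sc W n z 1 (fun _ => 1) with hZ0def
  have hZm : Sc W n z 0 (fun _ => 1) = Zp := heven _ fun _ => rfl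
  have hwA' : wA = 2 * Zp := by
    rw [hwA, SA_eq W n z hn, hZm]; ring
  have hwB' : wB = Z0 := by rw [hwB, SB_eq]
  have hle := wA_le_wB hN hn hstab z hW hZm
  rw [← hZpdef, ← hZ0def] at hle
  have hZpnn : 0 ≤ Zp := by
    rw [hZpdef]; unfold Sc
    refine Finset.sum_nonneg fun ω _ => ?_
    split_ifs
    · simpa using hW ω
    · exact le_rfl
  refine ⟨by rw [hwA', hwB']; linarith, ?_⟩
  rcases hZpnn.eq_or_lt with hz | hZp
  · -- no flips at z
    have hwA0 : wA = 0 := by rw [hwA', ← hz]; ring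
    have hp0 : ∀ x, p x = 0 := by
      intro x; rw [hp x, hwA0, div_zero]
    have hab0 : ab = 0 := by rw [hab]; simp [hp0]
    have hL0 : L = 0 := by rw [hL]; simp [hp0]
    rw [hwA0, div_zero, hab0, hL0]
    have : 0 ≤ SB W n z (fun ω => (∑ x, a x * ((n ω x : ℝ) - 1)) ^ 2) / wB := by
      refine div_nonneg ?_ (by rw [hwB']; linarith)
      unfold SB
      refine Finset.sum_nonneg fun ω _ => ?_
      split_ifs
      · exact mul_nonneg (hW ω) (sq_nonneg _)
      · exact le_rfl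
    simp
    linarith
  · have hZ0 : 0 < Z0 := by linarith
    -- ε and σ
    have hε2 : ε ^ 2 = (Z0 - 2 * Zp) / (Z0 + 2 * Zp) := by
      rw [hε, hwA', hwB', Real.sq_sqrt]
      · field_simp; ring
      · rw [sub_nonneg, div_le_one (by linarith)]; linarith
    have hεnn : 0 ≤ ε := by rw [hε]; exact Real.sqrt_nonneg _
    have hε1 : ε < 1 := by
      have : ε ^ 2 < 1 := by
        rw [hε2, div_lt_one (by linarith)]; linarith
      nlinarith
    have hεZ : 2 * Zp * (1 + ε ^ 2) = Z0 * (1 - ε ^ 2) := by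
      rw [hε2]; field_simp; ring
    set σ : ℝ := (1 - ε) / (1 + ε) with hσdef
    have h1ε : 0 < 1 + ε := by linarith
    have hσ0 : 0 < σ := div_pos (by linarith) h1ε
    have hσ1 : σ ≤ 1 := by
      rw [hσdef, div_le_one h1ε]; linarith
    have hσeq : Zp * (1 + σ ^ 2) = σ * Z0 := by
      rw [hσdef]; field_simp
      nlinarith [hεZ]
    -- moments
    let m : V → ℝ := fun x => Sc W n z 2 (fun ω => (n ω x : ℝ) - 1)
    have hpm : ∀ x, p x = - m x / Zp := by
      intro x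
      rw [hp x, SA_eq W n z hn]
      have h2 : Sc W n z 2 (fun ω => -((n ω z : ℝ) - 1) * ((n ω x : ℝ) - 1)) = - m x := by
        simp only [m]
        rw [← hneg]
        unfold Sc
        refine Finset.sum_congr rfl fun ω _ => ?_
        by_cases h : n ω z = 2
        · rw [if_pos h, if_pos h]; simp only [h]; push_cast; ring
        · rw [if_neg h, if_neg h]
      have h0 : Sc W n z 0 (fun ω => -((n ω z : ℝ) - 1) * ((n ω x : ℝ) - 1))
          = Sc W n z 2 (fun ω => -((n ω z : ℝ) - 1) * ((n ω x : ℝ) - 1)) := by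
        refine heven _ fun ω => ?_
        rw [hcast, hcast]; ring
      rw [h0, h2, hwA']
      field_simp
      ring
    have hsumj : ∀ ω, W ω ≠ 0 → ∑ x, ((n ω x : ℝ) - 1) = 0 := by
      intro ω h
      rw [Finset.sum_sub_distrib]
      have := hN ω h
      have h2 : ((∑ x, (n ω x : ℝ))) = (N : ℝ) := by exact_mod_cast this
      rw [h2, hV]
      simp
    have hSclin : ∀ (i : ℕ) (c : V → ℝ),
        Sc W n z i (fun ω => ∑ x, c x * ((n ω x : ℝ) - 1))
          = ∑ x, c x * Sc W n z i (fun ω => (n ω x : ℝ) - 1) := by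
      intro i c
      unfold Sc
      simp only [Finset.mul_sum]
      rw [Finset.sum_comm]
      refine Finset.sum_congr rfl fun ω _ => ?_
      by_cases h : n ω z = i
      · simp only [if_pos h]
        exact Finset.sum_congr rfl fun x _ => by ring
      · simp only [if_neg h]; simp
    have hScongr : ∀ (i : ℕ) (f g : Ω → ℝ), (∀ ω, W ω ≠ 0 → n ω z = i → f ω = g ω) →
        Sc W n z i f = Sc W n z i g := by
      intro i f g h
      unfold Sc
      refine Finset.sum_congr rfl fun ω _ => ?_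
      by_cases h1 : n ω z = i
      · rw [if_pos h1, if_pos h1]
        by_cases h2 : W ω = 0
        · rw [h2]; ring
        · rw [h ω h2 h1]
      · rw [if_neg h1, if_neg h1]
    have hmsum : ∑ x, m x = 0 := by
      have h1 := hSclin 2 (fun _ => 1)
      simp only [one_mul] at h1
      rw [← h1, hScongr 2 _ (fun _ => 0) (fun ω h _ => hsumj ω h)]
      unfold Sc; simp
    have hmz : m z = Zp := by
      simp only [m, hZpdef]
      refine hScongr 2 _ _ fun ω _ h => ?_
      rw [h]; norm_num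
    -- φ
    let φ : V → ℝ := fun x => if x = z then 0 else a x - a z - ab
    have hφz : φ z = 0 := by simp [φ]
    have hφsum : ∀ (g : V → ℝ), ∑ x, φ x * g x
        = ∑ x, (a x - a z - ab) * g x + ab * g z := by
      intro g
      have h1 : ∀ x, φ x * g x = (a x - a z - ab) * g x + (if x = z then ab * g z else 0) := by
        intro x
        by_cases hx : x = z
        · simp [φ, hx]
        · simp [φ, hx]
      simp only [h1, Finset.sum_add_distrib, Finset.sum_ite_eq', Finset.mem_univ, if_true]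
    have hφsum2 : ∀ (g : V → ℝ), ∑ x, φ x ^ 2 * g x
        = ∑ x, (a x - a z - ab) ^ 2 * g x - ab ^ 2 * g z := by
      intro g
      have h1 : ∀ x, φ x ^ 2 * g x
          = (a x - a z - ab) ^ 2 * g x + (if x = z then -(ab ^ 2 * g z) else 0) := by
        intro x
        by_cases hx : x = z
        · simp [φ, hx]
        · simp [φ, hx]
      simp only [h1, Finset.sum_add_distrib, Finset.sum_ite_eq', Finset.mem_univ, if_true]
      ring
    have hJ : ∀ ω, W ω ≠ 0 → ∑ x, φ x * ((n ω x : ℝ) - 1)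
        = ∑ x, a x * ((n ω x : ℝ) - 1) + ab * ((n ω z : ℝ) - 1) := by
      intro ω h
      rw [hφsum]
      have h2 : ∑ x, (a x - a z - ab) * ((n ω x : ℝ) - 1)
          = ∑ x, a x * ((n ω x : ℝ) - 1) - (a z + ab) * ∑ x, ((n ω x : ℝ) - 1) := by
        rw [Finset.mul_sum, ← Finset.sum_sub_distrib]
        exact Finset.sum_congr rfl fun x _ => by ring
      rw [h2, hsumj ω h]; ring
    have hpsum : ∀ (g : V → ℝ), ∑ x, p x * g x = -(∑ x, m x * g x) / Zp := by
      intro g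
      rw [← Finset.sum_neg_distrib, Finset.sum_div]
      exact Finset.sum_congr rfl fun x _ => by rw [hpm]; ring
    have hab' : ∑ x, m x * a x = - ab * Zp := by
      have h1 : ∑ x, m x * (a x - a z) = ∑ x, m x * a x - a z * ∑ x, m x := by
        rw [Finset.mul_sum, ← Finset.sum_sub_distrib]
        exact Finset.sum_congr rfl fun x _ => by ring
      have h2 : ab = -(∑ x, m x * (a x - a z)) / Zp := by rw [hab, hpsum]
      rw [h1, hmsum, mul_zero, sub_zero] at h2
      rw [h2]; field_simp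
    have haj2 : Sc W n z 2 (fun ω => ∑ x, a x * ((n ω x : ℝ) - 1)) = - ab * Zp := by
      rw [hSclin, ← hab']
      exact Finset.sum_congr rfl fun x _ => by simp only [m]; ring
    -- linear condition
    have hφlin : Sc W n z 2 (fun ω => ∑ x, φ x * ((n ω x : ℝ) - 1)) = 0 := by
      rw [hScongr 2 _ (fun ω => ∑ x, a x * ((n ω x : ℝ) - 1) + ab * 1)
        (fun ω h h2 => by rw [hJ ω h, h2]; norm_num)]
      have : Sc W n z 2 (fun ω => ∑ x, a x * ((n ω x : ℝ) - 1) + ab * 1)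
          = Sc W n z 2 (fun ω => ∑ x, a x * ((n ω x : ℝ) - 1)) + ab * Zp := by
        rw [hZpdef]
        unfold Sc
        rw [Finset.mul_sum, ← Finset.sum_add_distrib]
        refine Finset.sum_congr rfl fun ω _ => ?_
        split_ifs <;> ring
      rw [this, haj2]; ring
    have hcore := one_node_core hN hn hstab hιW hιn z φ hφz hZp σ hσ0 hσ1 hσeq hφlin
    -- the quadratic terms
    have hV2 : Sc W n z 2 (fun ω => (∑ x, φ x * ((n ω x : ℝ) - 1)) ^ 2)
        = Sc W n z 2 (fun ω => (∑ x, a x * ((n ω x : ℝ) - 1)) ^ 2) - ab ^ 2 * Zp := by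
      rw [hScongr 2 _ (fun ω => (∑ x, a x * ((n ω x : ℝ) - 1) + ab * 1) ^ 2)
        (fun ω h h2 => by rw [hJ ω h, h2]; norm_num)]
      have : Sc W n z 2 (fun ω => (∑ x, a x * ((n ω x : ℝ) - 1) + ab * 1) ^ 2)
          = Sc W n z 2 (fun ω => (∑ x, a x * ((n ω x : ℝ) - 1)) ^ 2)
            + 2 * ab * Sc W n z 2 (fun ω => ∑ x, a x * ((n ω x : ℝ) - 1)) + ab ^ 2 * Zp := by
        rw [hZpdef]
        unfold Sc
        rw [Finset.mul_sum, Finset.mul_sum, ← Finset.sum_add_distrib, ← Finset.sum_add_distrib]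
        refine Finset.sum_congr rfl fun ω _ => ?_
        split_ifs <;> ring
      rw [this, haj2]; ring
    have hV1 : Sc W n z 1 (fun ω => (∑ x, φ x * ((n ω x : ℝ) - 1)) ^ 2)
        = Sc W n z 1 (fun ω => (∑ x, a x * ((n ω x : ℝ) - 1)) ^ 2) := by
      refine hScongr 1 _ _ fun ω h h2 => ?_
      rw [hJ ω h, h2]; norm_num
    have hQ2 : Sc W n z 2 (fun ω => ∑ x, φ x ^ 2 * ((n ω x : ℝ) - 1))
        = - Zp * (L - ab ^ 2) := by
      rw [hSclin 2 (fun x => φ x ^ 2)]
      have h1 : ∑ x, φ x ^ 2 * Sc W n z 2 (fun ω => (n ω x : ℝ) - 1)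
          = ∑ x, (a x - a z - ab) ^ 2 * m x - ab ^ 2 * m z := hφsum2 m
      rw [h1, hmz]
      have h2 : ∑ x, (a x - a z - ab) ^ 2 * m x
          = ∑ x, m x * (a x - a z) ^ 2 - 2 * ab * ∑ x, m x * (a x - a z) + ab ^ 2 * ∑ x, m x := by
        rw [Finset.mul_sum, Finset.mul_sum, ← Finset.sum_sub_distrib, ← Finset.sum_add_distrib]
        exact Finset.sum_congr rfl fun x _ => by ring
      have h3 : ∑ x, m x * (a x - a z) ^ 2 = - L * Zp := by
        rw [hL, hpsum]; field_simp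
      have h4 : ∑ x, m x * (a x - a z) = - ab * Zp := by
        rw [hab, hpsum]; field_simp
      rw [h2, h3, h4, hmsum]; ring
    rw [hV2, hV1, hQ2] at hcore
    -- conclusion
    set A2 := Sc W n z 2 (fun ω => (∑ x, a x * ((n ω x : ℝ) - 1)) ^ 2) with hA2
    set A1 := Sc W n z 1 (fun ω => (∑ x, a x * ((n ω x : ℝ) - 1)) ^ 2) with hA1
    have hSA : SA W n z (fun ω => (∑ x, a x * ((n ω x : ℝ) - 1)) ^ 2) = 2 * A2 := by
      rw [SA_eq W n z hn, heven (fun ω => (∑ x, a x * ((n ω x : ℝ) - 1)) ^ 2) (fun ω => by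
        simp only [hcast, mul_neg, Finset.sum_neg_distrib]; ring)]
      ring
    rw [hSA, SB_eq, ← hA1, hwA', hwB']
    have hrat : 2 * ε / (1 + ε ^ 2) = (1 - σ ^ 2) / (1 + σ ^ 2) := by
      rw [hσdef]
      have : 0 < 1 + ε ^ 2 := by positivity
      field_simp
      ring
    rw [hrat]
    have hσp : 0 < 1 + σ ^ 2 := by positivity
    have hkey : (2 * A2 / (2 * Zp) - A1 / Z0 - ab ^ 2) * (Zp * (1 + σ ^ 2))
        = (1 + σ ^ 2) * (A2 - ab ^ 2 * Zp) - σ * A1 := by
      have h1 : A1 / Z0 * (Zp * (1 + σ ^ 2)) = σ * A1 := by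
        rw [hσeq]; field_simp
      have h2 : 2 * A2 / (2 * Zp) * (Zp * (1 + σ ^ 2)) = (1 + σ ^ 2) * A2 := by
        field_simp
      calc _ = 2 * A2 / (2 * Zp) * (Zp * (1 + σ ^ 2)) - A1 / Z0 * (Zp * (1 + σ ^ 2))
            - ab ^ 2 * (Zp * (1 + σ ^ 2)) := by ring
        _ = _ := by rw [h1, h2]; ring
    have hfin : (2 * A2 / (2 * Zp) - A1 / Z0 - ab ^ 2) * (Zp * (1 + σ ^ 2))
        ≤ ((1 - σ ^ 2) / (1 + σ ^ 2) * (L - ab ^ 2)) * (Zp * (1 + σ ^ 2)) := by
      rw [hkey]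
      have : ((1 - σ ^ 2) / (1 + σ ^ 2) * (L - ab ^ 2)) * (Zp * (1 + σ ^ 2))
          = (1 - σ ^ 2) * (Zp * (L - ab ^ 2)) := by field_simp
      rw [this]
      linarith
    have := le_of_mul_le_mul_right hfin (mul_pos hZp hσp)
    linarith

end Vale.Agent.P361.LRO.ON
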